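import Vale.Agent.P006.V1X.Fam
import Vale.Agent.P006.V1.Sep

/-!
P006, block V1X: separation of variables for `V^o`, uniformly for the weights
`V0 ((u - u0)/ξ)` (polynomial dependence on `1/ξ`).
-/

open MeasureTheory Filter Topology Function Set
open scoped Real SchwartzMap ComplexConjugate ContDiff

namespace Vale.Agent.P006.V1X

open Vale.Agent.P006.PO
open Vale.Agent.P006.V1 (WT SepK mellin_by_parts schwartz_mellinConvergent
  continuous_mellin_line)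

theorem WT_pos {V : ℝ → ℂ} (hV : Wt V) {x : ℝ} (hx : 0 < x) :
    WT hV.radS x = Vo V (x ^ 2) := by
  have h := V1.Vo_radS hV (x ^ 2)
  rw [V1.Vo, Real.sqrt_sq hx.le] at h
  exact h

theorem mul_deriv_WT {V : ℝ → ℂ} (hV : Wt V) {x : ℝ} (hx : 0 < x) :
    (x : ℂ) * SchwartzMap.derivCLM ℂ ℂ (WT hV.radS) x = 2 * WT (wt_D1 hV).radS x := by
  rw [SchwartzMap.derivCLM_apply, WT_pos (wt_D1 hV) hx]
  have h1 := hasDerivAt_Vo hV (show 0 < x ^ 2 by positivity)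
  have h2 : HasDerivAt (fun x : ℝ => x ^ 2) (2 * x) x := by
    simpa using hasDerivAt_pow 2 x
  have h3 := HasDerivAt.scomp (h := fun x : ℝ => x ^ 2) x h1 h2
  have h4 : (Vo V ∘ fun x : ℝ => x ^ 2) =ᶠ[𝓝 x] WT hV.radS := by
    filter_upwards [lt_mem_nhds hx] with y hy
    exact (WT_pos hV hy).symm
  have h5 := h3.congr_of_eventuallyEq h4.symm
  rw [h5.deriv, Complex.real_smul]
  have hx' : (x : ℂ) ≠ 0 := by exact_mod_cast hx.ne'
  push_cast
  field_simp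

theorem mellin_WT_D1 {V : ℝ → ℂ} (hV : Wt V) {s : ℂ} (hs : 0 < s.re) :
    s * mellin (WT hV.radS : ℝ → ℂ) s = -2 * mellin (WT (wt_D1 hV).radS : ℝ → ℂ) s := by
  rw [mellin_by_parts _ hs, mellin, mellin, neg_mul, ← integral_const_mul]
  congr 1
  refine setIntegral_congr_fun measurableSet_Ioi fun x hx => ?_
  have hx' : (x : ℂ) ≠ 0 := by exact_mod_cast (ne_of_gt hx)
  simp only [smul_eq_mul]
  have h1 := mul_deriv_WT hV hx
  have h2 : (x : ℂ) ^ (s + 1 - 1) = (x : ℂ) ^ (s - 1) * x := by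
    rw [show s + 1 - 1 = (s - 1) + 1 by ring, Complex.cpow_add _ _ hx', Complex.cpow_one]
  rw [h2, mul_assoc, h1]
  ring

theorem norm_mellin_WT {V : ℝ → ℂ} (hV : Wt V) {σ t : ℝ} (hσ : 0 < σ) :
    ‖mellin (WT hV.radS : ℝ → ℂ) (σ + t * Complex.I)‖ ≤
      4 / (σ ^ 2 + t ^ 2) *
        ∫ x : ℝ in Ioi 0, x ^ (σ - 1) * ‖Vo (D1 (D1 V)) (x ^ 2)‖ := by
  set s : ℂ := σ + t * Complex.I with hs
  have hre : s.re = σ := by simp [hs]
  have h1 := mellin_WT_D1 hV (s := s) (by rw [hre]; exact hσ)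
  have h2 := mellin_WT_D1 (wt_D1 hV) (s := s) (by rw [hre]; exact hσ)
  have h3 : s ^ 2 * mellin (WT hV.radS : ℝ → ℂ) s =
      4 * mellin (WT (wt_D1 (wt_D1 hV)).radS : ℝ → ℂ) s := by
    linear_combination s * h1 - 2 * h2
  have h4 : ‖s‖ ^ 2 = σ ^ 2 + t ^ 2 := by
    rw [← Complex.normSq_eq_norm_sq, Complex.normSq_apply]
    simp [hs]; ring
  have h5 : ‖mellin (WT (wt_D1 (wt_D1 hV)).radS : ℝ → ℂ) s‖ ≤
      ∫ x : ℝ in Ioi 0, x ^ (σ - 1) * ‖Vo (D1 (D1 V)) (x ^ 2)‖ := by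
    rw [mellin]
    refine (norm_integral_le_integral_norm _).trans (le_of_eq ?_)
    refine setIntegral_congr_fun measurableSet_Ioi fun x hx => ?_
    simp only [norm_smul]
    rw [Complex.norm_cpow_eq_rpow_re_of_pos hx, WT_pos _ hx]
    simp [hre]
  have h6 := congrArg norm h3
  rw [norm_mul, norm_mul, norm_pow, h4] at h6
  simp only [Complex.norm_ofNat] at h6
  have hpos : 0 < σ ^ 2 + t ^ 2 := by positivity
  rw [div_mul_eq_mul_div, le_div_iff₀ hpos]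
  nlinarith

theorem Vo_DV_iter {V : ℝ → ℂ} (hV : Wt V) (j : ℕ) {x : ℝ} (hx : 0 ≤ x) :
    Wt (DV^[j] V) ∧ Vo (DV^[j] V) x = (-(4 * π ^ 2 * x : ℝ) : ℂ) ^ j * Vo V x := by
  induction j with
  | zero => exact ⟨hV, by simp⟩
  | succ j ih =>
    rw [Function.iterate_succ_apply']
    refine ⟨ih.1.DV, ?_⟩
    rw [Vo_DV ih.1 hx, ih.2, pow_succ]
    ring

/-- `‖V^o x‖ ≤ x^{-j} ∫ ‖rad (DV^j V)‖` -/
theorem norm_Vo_le_pow {V : ℝ → ℂ} (hV : Wt V) (j : ℕ) {x : ℝ} (hx : 0 < x) :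
    ‖Vo V x‖ ≤ (∫ z : ℂ, ‖rad (DV^[j] V) z‖) / x ^ j := by
  have h1 := (Vo_DV_iter hV j hx.le).2
  have h2 := norm_Vo_le (DV^[j] V) x
  rw [h1, norm_mul, norm_pow, norm_neg, Complex.norm_real,
    Real.norm_of_nonneg (by positivity)] at h2
  rw [le_div_iff₀ (by positivity)]
  have h3 : x ^ j ≤ (4 * π ^ 2 * x) ^ j := by
    have hpi : 1 ≤ 4 * π ^ 2 := by nlinarith [Real.pi_gt_three]
    exact pow_le_pow_left₀ hx.le (le_mul_of_one_le_left hx.le hpi) j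
  calc ‖Vo V x‖ * x ^ j ≤ ‖Vo V x‖ * (4 * π ^ 2 * x) ^ j :=
        mul_le_mul_of_nonneg_left h3 (norm_nonneg _)
    _ ≤ _ := by rw [mul_comm]; exact h2

theorem integral_Vo_le {V : ℝ → ℂ} (hV : Wt V) {σ : ℝ} (hσ : 0 < σ) (j : ℕ)
    (hj : σ < 2 * j) :
    ∫ x : ℝ in Ioi 0, x ^ (σ - 1) * ‖Vo V (x ^ 2)‖ ≤
      (∫ z : ℂ, ‖rad V z‖) / σ + (∫ z : ℂ, ‖rad (DV^[j] V) z‖) / (2 * j - σ) := by
  set K0 := ∫ z : ℂ, ‖rad V z‖
  set Kj := ∫ z : ℂ, ‖rad (DV^[j] V) z‖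
  have hK0 : 0 ≤ K0 := by positivity
  have hKj : 0 ≤ Kj := by positivity
  have hcont : Continuous fun x : ℝ => ‖Vo V (x ^ 2)‖ :=
    (hV.Vo_continuous.comp (continuous_pow 2)).norm
  have hm1 : AEStronglyMeasurable (fun x : ℝ => x ^ (σ - 1) * ‖Vo V (x ^ 2)‖)
      (volume.restrict (Ioi 0)) := by
    have : AEStronglyMeasurable (fun x : ℝ => x ^ (σ - 1)) (volume.restrict (Ioi 0)) :=
      (Measurable.pow_const measurable_id _).aestronglyMeasurable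
    exact this.mul hcont.aestronglyMeasurable
  have i1 : IntegrableOn (fun x : ℝ => K0 * x ^ (σ - 1)) (Ioc 0 1) := by
    have := (intervalIntegral.intervalIntegrable_rpow' (a := 0) (b := 1)
      (r := σ - 1) (by linarith)).const_mul K0
    rwa [intervalIntegrable_iff_integrableOn_Ioc_of_le zero_le_one] at this
  have hlt : σ - 1 - 2 * j < -1 := by linarith
  have i2 : IntegrableOn (fun x : ℝ => Kj * x ^ (σ - 1 - 2 * j)) (Ioi 1) :=
    (integrableOn_Ioi_rpow_of_lt hlt one_pos).const_mul Kj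
  have b1 : ∀ x ∈ Ioc (0 : ℝ) 1, ‖x ^ (σ - 1) * ‖Vo V (x ^ 2)‖‖ ≤ K0 * x ^ (σ - 1) := by
    intro x hx
    rw [Real.norm_of_nonneg (mul_nonneg (Real.rpow_nonneg hx.1.le _) (norm_nonneg _)), mul_comm]
    exact mul_le_mul_of_nonneg_right (norm_Vo_le V _) (Real.rpow_nonneg hx.1.le _)
  have b2 : ∀ x ∈ Ioi (1 : ℝ), ‖x ^ (σ - 1) * ‖Vo V (x ^ 2)‖‖ ≤ Kj * x ^ (σ - 1 - 2 * j) := by
    intro x hx
    have hx0 : 0 < x := lt_trans one_pos hx
    rw [Real.norm_of_nonneg (mul_nonneg (Real.rpow_nonneg hx0.le _) (norm_nonneg _))]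
    have h := norm_Vo_le_pow hV j (show 0 < x ^ 2 by positivity)
    have e : x ^ (σ - 1 - 2 * j) = x ^ (σ - 1) / (x ^ 2) ^ j := by
      rw [Real.rpow_sub hx0, ← pow_mul]
      congr 1
      rw [← Real.rpow_natCast]; push_cast; rfl
    rw [e]
    calc x ^ (σ - 1) * ‖Vo V (x ^ 2)‖ ≤ x ^ (σ - 1) * (Kj / (x ^ 2) ^ j) :=
          mul_le_mul_of_nonneg_left h (Real.rpow_nonneg hx0.le _)
      _ = Kj * (x ^ (σ - 1) / (x ^ 2) ^ j) := by ring
  have j1 : IntegrableOn (fun x : ℝ => x ^ (σ - 1) * ‖Vo V (x ^ 2)‖) (Ioc 0 1) :=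
    Integrable.mono' i1 (hm1.mono_measure (Measure.restrict_mono Ioc_subset_Ioi_self le_rfl))
      ((ae_restrict_iff' measurableSet_Ioc).2 (Eventually.of_forall b1))
  have j2 : IntegrableOn (fun x : ℝ => x ^ (σ - 1) * ‖Vo V (x ^ 2)‖) (Ioi 1) :=
    Integrable.mono' i2 (hm1.mono_measure (Measure.restrict_mono
      (Ioi_subset_Ioi zero_le_one) le_rfl))
      ((ae_restrict_iff' measurableSet_Ioi).2 (Eventually.of_forall b2))
  have hsplit : Ioi (0 : ℝ) = Ioc 0 1 ∪ Ioi 1 := (Ioc_union_Ioi_eq_Ioi zero_le_one).symm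
  rw [hsplit, setIntegral_union (by
    rw [Set.disjoint_left]; intro x hx hx'; exact absurd hx.2 (not_le.2 hx'))
    measurableSet_Ioi j1 j2]
  refine add_le_add ?_ ?_
  · calc ∫ x in Ioc (0 : ℝ) 1, x ^ (σ - 1) * ‖Vo V (x ^ 2)‖
        ≤ ∫ x in Ioc (0 : ℝ) 1, K0 * x ^ (σ - 1) :=
          setIntegral_mono_on j1 i1 measurableSet_Ioc fun x hx =>
            (le_abs_self _).trans (b1 x hx)
      _ = K0 / σ := by
          rw [← intervalIntegral.integral_of_le zero_le_one, intervalIntegral.integral_const_mul,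
            integral_rpow (Or.inl (by linarith))]
          simp only [sub_add_cancel, Real.one_rpow, Real.zero_rpow hσ.ne', sub_zero]
          ring
  · calc ∫ x in Ioi (1 : ℝ), x ^ (σ - 1) * ‖Vo V (x ^ 2)‖
        ≤ ∫ x in Ioi (1 : ℝ), Kj * x ^ (σ - 1 - 2 * j) :=
          setIntegral_mono_on j2 i2 measurableSet_Ioi fun x hx =>
            (le_abs_self _).trans (b2 x hx)
      _ = Kj / (2 * j - σ) := by
          rw [integral_const_mul, integral_Ioi_rpow_of_lt hlt one_pos, Real.one_rpow]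
          have h1 : (σ - 1 - 2 * j + 1 : ℝ) ≠ 0 := by linarith
          have h2 : (2 * j - σ : ℝ) ≠ 0 := by linarith
          field_simp
          ring

/-- Mellin inversion with an explicit constant -/
theorem sepK_of_bound {V : ℝ → ℂ} (hV : Wt V) {σ C : ℝ} (hσ : 0 < σ) (hC : 0 ≤ C)
    (h : ∀ t : ℝ, ‖mellin (WT hV.radS : ℝ → ℂ) ((2 * σ : ℝ) + t * Complex.I)‖
      ≤ C / (1 + t ^ 2)) : ∃ H : ℝ → ℂ, SepK V σ H C := by
  have h2s : 0 < 2 * σ := by linarith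
  set W : 𝓢(ℝ, ℂ) := WT hV.radS with hW
  have hvi : Complex.VerticalIntegrable (mellin (W : ℝ → ℂ)) (2 * σ) := by
    refine Integrable.mono' (g := fun t : ℝ => C * (1 + t ^ 2)⁻¹)
      (integrable_inv_one_add_sq.const_mul C)
      (continuous_mellin_line W h2s).aestronglyMeasurable ?_
    filter_upwards with t
    rw [← div_eq_mul_inv]; exact h t
  refine ⟨fun t => (1 / Real.pi : ℝ) * mellin (W : ℝ → ℂ) ((2 * σ : ℝ) + (2 * t : ℝ) * Complex.I),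
    ?_, ?_, ?_⟩
  · have := (continuous_mellin_line W h2s).comp (continuous_const.mul continuous_id : Continuous
      fun t : ℝ => 2 * t)
    exact continuous_const.mul this
  · intro t
    rw [norm_mul, Complex.norm_real, Real.norm_of_nonneg (by positivity)]
    have h1 : (1 / π : ℝ) ≤ 1 := by
      rw [div_le_one Real.pi_pos]; linarith [Real.pi_gt_three]
    have h2 := h (2 * t)
    have h3 : C / (1 + (2 * t) ^ 2) ≤ C / (1 + t ^ 2) := by
      refine div_le_div_of_nonneg_left hC (by positivity) ?_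
      nlinarith [sq_nonneg t]
    calc (1 / π : ℝ) * ‖mellin (W : ℝ → ℂ) ((2 * σ : ℝ) + (2 * t : ℝ) * Complex.I)‖
        ≤ 1 * (C / (1 + t ^ 2)) :=
          mul_le_mul h1 (h2.trans h3) (norm_nonneg _) zero_le_one
      _ = C / (1 + t ^ 2) := one_mul _
  · intro y hy
    have hx : 0 < Real.sqrt y := Real.sqrt_pos.2 hy
    have e0 : Vo V y = W (Real.sqrt y) := by
      rw [hW, WT_pos hV hx, Real.sq_sqrt hy.le]
    rw [e0]
    have hinv := mellinInv_mellin_eq (2 * σ) (W : ℝ → ℂ) hx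
      (schwartz_mellinConvergent W (by simpa using h2s)) hvi
      W.continuous.continuousAt
    rw [← hinv, mellinInv]
    have hsub := Measure.integral_comp_mul_left (fun u : ℝ =>
      ((Real.sqrt y : ℝ) : ℂ) ^ (-(((2 * σ : ℝ) : ℂ) + u * Complex.I)) •
        mellin (W : ℝ → ℂ) (((2 * σ : ℝ) : ℂ) + u * Complex.I)) (2 : ℝ)
    have e1 : (∫ u : ℝ, ((Real.sqrt y : ℝ) : ℂ) ^ (-(((2 * σ : ℝ) : ℂ) + u * Complex.I)) •
        mellin (W : ℝ → ℂ) (((2 * σ : ℝ) : ℂ) + u * Complex.I)) =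
        (2 : ℝ) • ∫ x : ℝ, ((Real.sqrt y : ℝ) : ℂ) ^
          (-(((2 * σ : ℝ) : ℂ) + (2 * x : ℝ) * Complex.I)) •
        mellin (W : ℝ → ℂ) (((2 * σ : ℝ) : ℂ) + (2 * x : ℝ) * Complex.I) := by
      rw [hsub, smul_smul]
      norm_num
    rw [e1, smul_smul, show (1 / (2 * Real.pi) * 2 : ℝ) = 1 / Real.pi by field_simp,
      ← integral_smul]
    refine integral_congr_ae (Eventually.of_forall fun t => ?_)
    have e2 : ((Real.sqrt y : ℝ) : ℂ) ^ (-(((2 * σ : ℝ) : ℂ) + (2 * t : ℝ) * Complex.I)) =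
        (y : ℂ) ^ (-((σ : ℂ) + t * Complex.I)) := by
      have : (-(((2 * σ : ℝ) : ℂ) + (2 * t : ℝ) * Complex.I)) =
          (2 : ℂ) * (-((σ : ℂ) + t * Complex.I)) := by
        push_cast; ring
      rw [this, Complex.cpow_def_of_ne_zero (by exact_mod_cast hx.ne'),
        Complex.cpow_def_of_ne_zero (by exact_mod_cast hy.ne')]
      congr 1
      have hl : (Real.log y : ℂ) = 2 * Real.log (Real.sqrt y) := by
        rw [Real.log_sqrt hy.le]; push_cast; ring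
      rw [← Complex.ofReal_log hx.le, ← Complex.ofReal_log hy.le, hl]
      ring
    simp only [Complex.real_smul, smul_eq_mul]
    rw [e2]; ring

/-- **ξ-uniform separation of variables** -/
theorem sepK_xi {V0 : ℝ → ℝ} (hV : DISP.Bump V0) {σ : ℝ} (hσ : 0 < σ) :
    ∃ C c : ℝ, 0 ≤ C ∧ 0 ≤ c ∧ ∀ ξ u0 : ℝ, 0 < ξ → ξ ≤ 1 → 1 ≤ u0 → u0 ≤ 2 →
      ∃ H : ℝ → ℂ, SepK (fun u => ((DISP.Vx V0 ξ u0 u : ℝ) : ℂ)) σ H (C * ξ ^ (-c)) := by
  have hP : Prof (fun x => (V0 x : ℂ)) := by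
    refine ⟨Complex.ofRealCLM.contDiff.comp hV.smooth, fun x hx => hV.supp x ?_⟩
    intro h0; apply hx; simp [h0]
  have hb : Gen (fun x => (V0 x : ℂ)) (fun ξ u0 u => (V0 ((u - u0) / ξ) : ℂ)) := by
    have := Gen.base (V := fun x => (V0 x : ℂ)) 0
    simpa only [iteratedDeriv_zero] using this
  obtain ⟨G1, hG1, e1⟩ := hb.exists_D1 hP
  obtain ⟨G2, hG2, e2⟩ := hG1.exists_D1 hP
  obtain ⟨j, hj⟩ := exists_nat_gt σ
  obtain ⟨G3, hG3, e3⟩ := hG2.exists_DV_iter hP j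
  obtain ⟨C2, c2, hC2, hc2, n2⟩ := hG2.norm_le hP
  obtain ⟨C3, c3, hC3, hc3, n3⟩ := hG3.norm_le hP
  have hjσ : 0 < 2 * (j : ℝ) - 2 * σ := by linarith
  set D : ℝ := C2 / (2 * σ) + C3 / (2 * j - 2 * σ) with hD
  have hD0 : 0 ≤ D := by positivity
  set m : ℝ := min 1 (4 * σ ^ 2) with hm
  have hm0 : 0 < m := lt_min one_pos (by positivity)
  refine ⟨4 / m * D, max c2 c3, by positivity, le_max_of_le_left hc2,
    fun ξ u0 h0 h1 h2 h3 => ?_⟩
  have hW : Wt (fun u => ((DISP.Vx V0 ξ u0 u : ℝ) : ℂ)) := hb.wt hP h0 h1 h2 h3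
  refine sepK_of_bound hW hσ (by positivity) fun t => ?_
  have k1 := norm_mellin_WT hW (σ := 2 * σ) (t := t) (by positivity)
  have hE : D1 (D1 (fun u => ((DISP.Vx V0 ξ u0 u : ℝ) : ℂ))) = G2 ξ u0 := by
    have : D1 (fun u => ((DISP.Vx V0 ξ u0 u : ℝ) : ℂ)) = G1 ξ u0 := e1 ξ u0 h0.ne'
    rw [this, e2 ξ u0 h0.ne']
  rw [hE] at k1
  have k2 := integral_Vo_le (hG2.wt hP h0 h1 h2 h3) (σ := 2 * σ) (by positivity) j
    (by linarith)
  rw [e3 ξ u0 h0.ne'] at k2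
  have m2 := n2 ξ u0 h0 h1 h2 h3
  have m3 := n3 ξ u0 h0 h1 h2 h3
  have r2 : ξ ^ (-c2) ≤ ξ ^ (-max c2 c3) :=
    Real.rpow_le_rpow_of_exponent_ge h0 h1 (neg_le_neg (le_max_left _ _))
  have r3 : ξ ^ (-c3) ≤ ξ ^ (-max c2 c3) :=
    Real.rpow_le_rpow_of_exponent_ge h0 h1 (neg_le_neg (le_max_right _ _))
  have k3 : ∫ x : ℝ in Ioi 0, x ^ (2 * σ - 1) * ‖Vo (G2 ξ u0) (x ^ 2)‖ ≤
      D * ξ ^ (-max c2 c3) := by
    refine k2.trans ?_
    calc (∫ z : ℂ, ‖rad (G2 ξ u0) z‖) / (2 * σ) + (∫ z : ℂ, ‖rad (G3 ξ u0) z‖) / (2 * j - 2 * σ)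
        ≤ (C2 * ξ ^ (-max c2 c3)) / (2 * σ) + (C3 * ξ ^ (-max c2 c3)) / (2 * j - 2 * σ) := by
          refine add_le_add ?_ ?_
          · refine div_le_div_of_nonneg_right (m2.trans ?_) (by positivity)
            exact mul_le_mul_of_nonneg_left r2 hC2
          · refine div_le_div_of_nonneg_right (m3.trans ?_) hjσ.le
            exact mul_le_mul_of_nonneg_left r3 hC3
      _ = D * ξ ^ (-max c2 c3) := by rw [hD]; ring
  have hpos : 0 < (2 * σ) ^ 2 + t ^ 2 := by positivity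
  have k4 : m * (1 + t ^ 2) ≤ (2 * σ) ^ 2 + t ^ 2 := by
    have a1 : m ≤ 1 := min_le_left _ _
    have a2 : m ≤ 4 * σ ^ 2 := min_le_right _ _
    nlinarith [sq_nonneg t]
  calc ‖mellin (WT hW.radS : ℝ → ℂ) ((2 * σ : ℝ) + t * Complex.I)‖
      ≤ 4 / ((2 * σ) ^ 2 + t ^ 2) *
        ∫ x : ℝ in Ioi 0, x ^ (2 * σ - 1) * ‖Vo (G2 ξ u0) (x ^ 2)‖ := k1
    _ ≤ 4 / (m * (1 + t ^ 2)) * (D * ξ ^ (-max c2 c3)) := by
        refine mul_le_mul ?_ k3 ?_ (by positivity)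
        · exact div_le_div_of_nonneg_left (by norm_num) (by positivity) k4
        · exact setIntegral_nonneg measurableSet_Ioi fun x hx =>
            mul_nonneg (Real.rpow_nonneg (le_of_lt hx) _) (norm_nonneg _)
    _ = 4 / m * D * ξ ^ (-max c2 c3) / (1 + t ^ 2) := by
        field_simp

end Vale.Agent.P006.V1X
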