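import Vale.Agent.P006.H485.Decay
import Mathlib.Analysis.Calculus.ParametricIntegral

/-!
P006, block V1X: the logarithmic derivative of `V^o`.
-/

open MeasureTheory Filter Topology Function Set
open scoped Real SchwartzMap ComplexConjugate ContDiff

namespace Vale.Agent.P006.V1X

open Vale.Agent.P006.PO

/-- `-(u V(u))'` -/
noncomputable def D1 (V : ℝ → ℂ) (x : ℝ) : ℂ := -(V x + x * deriv V x)

theorem wt_D1 {V : ℝ → ℂ} (hV : Wt V) : Wt (D1 V) := by
  have h1 : Wt fun x : ℝ => V x + (x : ℂ) * deriv V x :=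
    hV.add (hV.deriv.mul_left (g := fun x : ℝ => (x : ℂ)) Complex.ofRealCLM.contDiff)
  have h2 := h1.const_mul (-1)
  have e : D1 V = fun x : ℝ => (-1 : ℂ) * (V x + (x : ℂ) * deriv V x) := by
    funext x; simp [D1]
  rw [e]; exact h2

theorem exists_norm_bound {V : ℝ → ℂ} (hV : Wt V) : ∃ M : ℝ, 0 ≤ M ∧ ∀ x, ‖V x‖ ≤ M := by
  obtain ⟨M, hM⟩ := hV.supp.exists_bound_of_continuous hV.smooth.continuous
  exact ⟨max M 0, le_max_right _ _, fun x => (hM x).trans (le_max_left _ _)⟩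

/-- derivative in the dilation parameter at `1` -/
theorem hasDerivAt_dil {V : ℝ → ℂ} (hV : Wt V) (t : ℝ) :
    HasDerivAt (fun B : ℝ => Vo (fun x => V (x / B)) t)
      (Vo (fun x => -(x * deriv V x)) t) 1 := by
  obtain ⟨R, hR, hsupp⟩ := hV.deriv.exists_bound
  obtain ⟨M, hM, hbd⟩ := exists_norm_bound hV.deriv
  have hVc : Continuous V := hV.smooth.continuous
  have hDc : Continuous (deriv V) := hV.deriv.smooth.continuous
  set y : ℂ := ((Real.sqrt t : ℝ) : ℂ) with hy
  have hint : Integrable (fun z : ℂ => eT (-(z * y)) * V (‖z‖ ^ 2)) := by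
    refine (SchwartzMap.integrable hV.radS).bdd_mul (c := 1)
      (continuous_eT.comp (by fun_prop)).aestronglyMeasurable
      (Eventually.of_forall fun z => (norm_eT _).le)
  have key := hasDerivAt_integral_of_dominated_loc_of_deriv_le (μ := (volume : Measure ℂ))
    (F := fun (B : ℝ) (z : ℂ) => eT (-(z * y)) * V (‖z‖ ^ 2 / B))
    (F' := fun (B : ℝ) (z : ℂ) => eT (-(z * y)) * (deriv V (‖z‖ ^ 2 / B) *
      ((-(‖z‖ ^ 2 / B ^ 2) : ℝ) : ℂ)))
    (x₀ := (1 : ℝ)) (s := Metric.ball (1 : ℝ) (1 / 2))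
    (bound := fun z : ℂ => (Metric.closedBall (0 : ℂ) (Real.sqrt (2 * R))).indicator
      (fun _ => M * (2 * R * 4)) z)
    (Metric.ball_mem_nhds _ (by norm_num)) ?_ ?_ ?_ ?_ ?_ ?_
  · have h2 := key.2
    have e1 : (fun B : ℝ => Vo (fun x => V (x / B)) t) =
        fun B : ℝ => ∫ z : ℂ, eT (-(z * y)) * V (‖z‖ ^ 2 / B) := by
      funext B; rw [Vo, FT]; rfl
    have e2 : Vo (fun x => -(x * deriv V x)) t =
        ∫ z : ℂ, eT (-(z * y)) * (deriv V (‖z‖ ^ 2 / 1) * ((-(‖z‖ ^ 2 / 1 ^ 2) : ℝ) : ℂ)) := by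
      rw [Vo, FT]
      congr 1
      funext z
      simp only [rad, div_one, one_pow]
      push_cast
      ring
    rw [e1, e2]
    exact h2
  · refine Eventually.of_forall fun B => ?_
    exact ((continuous_eT.comp (by fun_prop)).mul
      (hVc.comp (by fun_prop))).aestronglyMeasurable
  · simpa using hint
  · exact ((continuous_eT.comp (by fun_prop)).mul
      ((hDc.comp (by fun_prop)).mul (by fun_prop))).aestronglyMeasurable
  · refine Eventually.of_forall fun z B hB => ?_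
    rw [Metric.mem_ball, Real.dist_eq, abs_lt] at hB
    have hB1 : 1 / 2 < B := by linarith [hB.1]
    have hB2 : B < 3 / 2 := by linarith [hB.2]
    rw [norm_mul, norm_eT, one_mul, norm_mul, Complex.norm_real, Real.norm_eq_abs, abs_neg,
      abs_of_nonneg (by positivity)]
    by_cases hz : z ∈ Metric.closedBall (0 : ℂ) (Real.sqrt (2 * R))
    · rw [indicator_of_mem hz]
      rw [mem_closedBall_zero_iff] at hz
      have h1 : ‖z‖ ^ 2 ≤ 2 * R := by
        calc ‖z‖ ^ 2 ≤ Real.sqrt (2 * R) ^ 2 := by gcongr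
          _ = 2 * R := Real.sq_sqrt (by positivity)
      have h2 : ‖z‖ ^ 2 / B ^ 2 ≤ 2 * R * 4 := by
        rw [div_le_iff₀ (by positivity)]
        have hB4 : 1 ≤ 4 * B ^ 2 := by nlinarith
        have : 2 * R ≤ 2 * R * (4 * B ^ 2) := le_mul_of_one_le_right (by positivity) hB4
        linarith
      exact mul_le_mul (hbd _) h2 (by positivity) hM
    · rw [indicator_of_notMem hz]
      rw [mem_closedBall_zero_iff, not_le] at hz
      have h1 : 2 * R < ‖z‖ ^ 2 := by
        calc 2 * R = Real.sqrt (2 * R) ^ 2 := (Real.sq_sqrt (by positivity)).symm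
          _ < ‖z‖ ^ 2 := by gcongr
      have h2 : R < |‖z‖ ^ 2 / B| := by
        rw [abs_of_nonneg (by positivity), lt_div_iff₀ (by linarith)]
        nlinarith
      rw [hsupp _ h2]
      simp
  · refine (integrable_indicator_iff Metric.isClosed_closedBall.measurableSet).2 ?_
    exact integrableOn_const (measure_closedBall_lt_top.ne) ENNReal.coe_ne_top
  · refine Eventually.of_forall fun z B hB => ?_
    rw [Metric.mem_ball, Real.dist_eq, abs_lt] at hB
    have hB1 : 1 / 2 < B := by linarith [hB.1]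
    have hB0 : B ≠ 0 := by linarith
    have hd : HasDerivAt (fun B : ℝ => ‖z‖ ^ 2 / B) (-(‖z‖ ^ 2 / B ^ 2)) B := by
      have := (hasDerivAt_inv hB0).const_mul (‖z‖ ^ 2)
      have e : (fun B : ℝ => ‖z‖ ^ 2 / B) = fun B : ℝ => ‖z‖ ^ 2 * B⁻¹ := by
        funext B; rw [div_eq_mul_inv]
      rw [e]
      refine this.congr_deriv ?_
      rw [div_eq_mul_inv]; ring
    have h3 := (hV.hasDerivAt (‖z‖ ^ 2 / B)).scomp B hd
    have h4 : HasDerivAt (fun B : ℝ => eT (-(z * y)) * V (‖z‖ ^ 2 / B))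
        (eT (-(z * y)) * -(‖z‖ ^ 2 / B ^ 2) • deriv V (‖z‖ ^ 2 / B)) B :=
      h3.const_mul (eT (-(z * y)))
    refine h4.congr_deriv ?_
    rw [Complex.real_smul]
    push_cast
    ring

theorem Vo_add {V W : ℝ → ℂ} (hV : Wt V) (hW : Wt W) (t : ℝ) :
    Vo (fun x => V x + W x) t = Vo V t + Vo W t := by
  rw [Vo, Vo, Vo, FT, FT, FT, ← integral_add]
  · congr 1; funext z; simp only [rad]; ring
  · exact (SchwartzMap.integrable hV.radS).bdd_mul (c := 1)
      (continuous_eT.comp (by fun_prop)).aestronglyMeasurable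
      (Eventually.of_forall fun z => (norm_eT _).le)
  · exact (SchwartzMap.integrable hW.radS).bdd_mul (c := 1)
      (continuous_eT.comp (by fun_prop)).aestronglyMeasurable
      (Eventually.of_forall fun z => (norm_eT _).le)

theorem Vo_neg (V : ℝ → ℂ) (t : ℝ) : Vo (fun x => -V x) t = -Vo V t := by
  rw [Vo, Vo, FT, FT, ← integral_neg]
  congr 1; funext z; simp only [rad]; ring

/-- `t (V^o)'(t) = (D1 V)^o(t)` -/
theorem hasDerivAt_Vo {V : ℝ → ℂ} (hV : Wt V) {t : ℝ} (ht : 0 < t) :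
    HasDerivAt (Vo V) (Vo (D1 V) t / t) t := by
  have h1 := hasDerivAt_dil hV t
  have h2 : HasDerivAt (fun B : ℝ => ((B⁻¹ : ℝ) : ℂ)) (((-(1 ^ 2)⁻¹ : ℝ)) : ℂ) (1 : ℝ) :=
    (hasDerivAt_inv (one_ne_zero)).ofReal_comp
  have h3 := h2.mul h1
  have h4 : HasDerivAt (fun B : ℝ => Vo V (B * t)) (Vo (D1 V) t) 1 := by
    have e : (fun B : ℝ => Vo V (B * t)) =ᶠ[𝓝 1]
        fun B : ℝ => ((B⁻¹ : ℝ) : ℂ) * Vo (fun x => V (x / B)) t := by
      filter_upwards [lt_mem_nhds (show (0 : ℝ) < 1 by norm_num)] with B hB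
      rw [Vo_scale V hB ht.le]
      have hB' : (B : ℂ) ≠ 0 := by exact_mod_cast hB.ne'
      push_cast
      field_simp
    refine (h3.congr_of_eventuallyEq e).congr_deriv ?_
    have hx : Wt fun x : ℝ => (x : ℂ) * deriv V x :=
      hV.deriv.mul_left (g := fun x : ℝ => (x : ℂ)) Complex.ofRealCLM.contDiff
    have e3 : Vo (D1 V) t = -(Vo V t + Vo (fun x : ℝ => (x : ℂ) * deriv V x) t) := by
      rw [← Vo_add hV hx, ← Vo_neg]; rfl
    rw [e3, Vo_neg]
    have e4 : (fun x : ℝ => V (x / 1)) = V := by funext x; rw [div_one]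
    rw [e4]
    push_cast
    simp only [one_pow, inv_one, one_mul]
    ring
  have h5 : HasDerivAt (fun s : ℝ => s / t) (1 / t) t := (hasDerivAt_id t).div_const t
  have h6 : HasDerivAt (fun B : ℝ => Vo V (B * t)) (Vo (D1 V) t) (t / t) := by
    rw [div_self ht.ne']; exact h4
  have h7 := HasDerivAt.scomp (h := fun s : ℝ => s / t) t h6 h5
  have e5 : ((fun B : ℝ => Vo V (B * t)) ∘ fun s : ℝ => s / t) = Vo V := by
    funext s; simp only [Function.comp_apply]; rw [div_mul_cancel₀ _ ht.ne']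
  rw [e5] at h7
  refine h7.congr_deriv ?_
  rw [Complex.real_smul]; push_cast; ring

end Vale.Agent.P006.V1X
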