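import Vale.Agent.P006.V1X.Deriv
import Vale.Agent.P006.DISP.Defs

/-!
P006, block V1X: the family of weights generated by `V0 ((u - u0)/ξ)` under derivatives,
multiplication by `u` and by `ξ⁻¹`; polynomial bounds in `1/ξ`.
-/

open MeasureTheory Filter Topology Function Set
open scoped Real SchwartzMap ComplexConjugate ContDiff

namespace Vale.Agent.P006.V1X

open Vale.Agent.P006.PO

inductive Gen (V : ℝ → ℂ) : (ℝ → ℝ → ℝ → ℂ) → Prop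
  | base (k : ℕ) : Gen V (fun ξ u0 u => iteratedDeriv k V ((u - u0) / ξ))
  | mulu {F : ℝ → ℝ → ℝ → ℂ} : Gen V F → Gen V (fun ξ u0 u => (u : ℂ) * F ξ u0 u)
  | inv {F : ℝ → ℝ → ℝ → ℂ} : Gen V F → Gen V (fun ξ u0 u => ((ξ⁻¹ : ℝ) : ℂ) * F ξ u0 u)
  | neg {F : ℝ → ℝ → ℝ → ℂ} : Gen V F → Gen V (fun ξ u0 u => - F ξ u0 u)
  | add {F G : ℝ → ℝ → ℝ → ℂ} : Gen V F → Gen V G → Gen V (fun ξ u0 u => F ξ u0 u + G ξ u0 u)

/-- hypotheses on the profile -/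
structure Prof (V : ℝ → ℂ) : Prop where
  smooth : ContDiff ℝ ∞ V
  supp : ∀ x, V x ≠ 0 → -(1 / 2) ≤ x ∧ x ≤ 3 / 2

theorem Prof.tsupp {V : ℝ → ℂ} (hV : Prof V) : tsupport V ⊆ Icc (-(1 / 2)) (3 / 2) :=
  closure_minimal (fun x hx => hV.supp x hx) isClosed_Icc

theorem Prof.tsupp_iter {V : ℝ → ℂ} (hV : Prof V) (k : ℕ) :
    tsupport (iteratedDeriv k V) ⊆ Icc (-(1 / 2)) (3 / 2) := by
  induction k with
  | zero => rw [iteratedDeriv_zero]; exact hV.tsupp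
  | succ k ih => rw [iteratedDeriv_succ]; exact tsupport_deriv_subset.trans ih

theorem Prof.contDiff_iter {V : ℝ → ℂ} (hV : Prof V) (k : ℕ) :
    ContDiff ℝ ∞ (iteratedDeriv k V) := by
  induction k with
  | zero => rw [iteratedDeriv_zero]; exact hV.smooth
  | succ k ih =>
    rw [iteratedDeriv_succ]
    exact (contDiff_infty_iff_deriv.1 ih).2

theorem Gen.exists_deriv {V : ℝ → ℂ} (hV : Prof V) {F : ℝ → ℝ → ℝ → ℂ} (hF : Gen V F) :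
    ∃ F' : ℝ → ℝ → ℝ → ℂ, Gen V F' ∧ ∀ ξ u0 u : ℝ, ξ ≠ 0 →
      HasDerivAt (F ξ u0) (F' ξ u0 u) u := by
  induction hF with
  | base k =>
    refine ⟨_, Gen.inv (Gen.base (k + 1)), fun ξ u0 u hξ => ?_⟩
    have h1 : HasDerivAt (iteratedDeriv k V) (iteratedDeriv (k + 1) V ((u - u0) / ξ))
        ((u - u0) / ξ) := by
      rw [iteratedDeriv_succ]
      exact (((hV.contDiff_iter k).differentiable (by simp)) _).hasDerivAt
    have h2 : HasDerivAt (fun u : ℝ => (u - u0) / ξ) ξ⁻¹ u := by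
      have := ((hasDerivAt_id u).sub_const u0).div_const ξ
      simpa [one_div] using this
    have h3 := HasDerivAt.scomp (h := fun u : ℝ => (u - u0) / ξ) u h1 h2
    refine HasDerivAt.congr_deriv (f := fun u : ℝ => iteratedDeriv k V ((u - u0) / ξ)) h3 ?_
    rw [Complex.real_smul]
  | mulu hF ih =>
    rename_i F
    obtain ⟨F', hF', h⟩ := ih
    refine ⟨_, Gen.add hF (Gen.mulu hF'), fun ξ u0 u hξ => ?_⟩
    have h1 : HasDerivAt (fun u : ℝ => (u : ℂ)) 1 u := by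
      simpa using (hasDerivAt_id u).ofReal_comp
    have h3 := h1.mul (h ξ u0 u hξ)
    refine HasDerivAt.congr_deriv (f := fun u : ℝ => (u : ℂ) * F ξ u0 u) h3 ?_
    rw [one_mul]
  | inv hF ih =>
    obtain ⟨F', hF', h⟩ := ih
    exact ⟨_, Gen.inv hF', fun ξ u0 u hξ => (h ξ u0 u hξ).const_mul _⟩
  | neg hF ih =>
    obtain ⟨F', hF', h⟩ := ih
    exact ⟨_, Gen.neg hF', fun ξ u0 u hξ => (h ξ u0 u hξ).neg⟩
  | add hF hG ihF ihG =>
    obtain ⟨F', hF', h⟩ := ihF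
    obtain ⟨G', hG', h'⟩ := ihG
    exact ⟨_, Gen.add hF' hG', fun ξ u0 u hξ => (h ξ u0 u hξ).add (h' ξ u0 u hξ)⟩

theorem Gen.contDiff {V : ℝ → ℂ} (hV : Prof V) {F : ℝ → ℝ → ℝ → ℂ} (hF : Gen V F)
    (ξ u0 : ℝ) : ContDiff ℝ ∞ (F ξ u0) := by
  induction hF with
  | base k => exact (hV.contDiff_iter k).comp ((contDiff_id.sub contDiff_const).div_const ξ)
  | mulu hF ih => exact Complex.ofRealCLM.contDiff.mul ih
  | inv hF ih => exact contDiff_const.mul ih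
  | neg hF ih => exact ih.neg
  | add hF hG ihF ihG => exact ihF.add ihG

theorem Gen.bound {V : ℝ → ℂ} (hV : Prof V) {F : ℝ → ℝ → ℝ → ℂ} (hF : Gen V F) :
    ∃ C c : ℝ, 0 ≤ C ∧ 0 ≤ c ∧ ∀ ξ u0 u : ℝ, 0 < ξ → ξ ≤ 1 → 1 ≤ u0 → u0 ≤ 2 →
      ‖F ξ u0 u‖ ≤ C * ξ ^ (-c) ∧ (F ξ u0 u ≠ 0 → 1 / 2 ≤ u ∧ u ≤ 7 / 2) := by
  induction hF with
  | base k =>
    have hc : HasCompactSupport (iteratedDeriv k V) :=
      HasCompactSupport.of_support_subset_isCompact isCompact_Icc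
        ((subset_tsupport _).trans (hV.tsupp_iter k))
    obtain ⟨C, hC⟩ := hc.exists_bound_of_continuous (hV.contDiff_iter k).continuous
    refine ⟨max C 0, 0, le_max_right _ _, le_rfl, fun ξ u0 u h0 h1 h2 h3 => ⟨?_, fun hne => ?_⟩⟩
    · rw [neg_zero, Real.rpow_zero, mul_one]
      exact (hC _).trans (le_max_left _ _)
    · have := hV.tsupp_iter k (subset_tsupport _ hne)
      rw [mem_Icc, le_div_iff₀ h0, div_le_iff₀ h0] at this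
      constructor <;> nlinarith [this.1, this.2]
  | mulu hF ih =>
    rename_i F
    obtain ⟨C, c, hC, hc, h⟩ := ih
    refine ⟨4 * C, c, by positivity, hc, fun ξ u0 u h0 h1 h2 h3 => ⟨?_, fun hne => ?_⟩⟩
    · obtain ⟨hb, hs⟩ := h ξ u0 u h0 h1 h2 h3
      beta_reduce
      by_cases hz : F ξ u0 u = 0
      · rw [hz, mul_zero, norm_zero]; positivity
      · obtain ⟨h5, h6⟩ := hs hz
        rw [norm_mul, Complex.norm_real, Real.norm_eq_abs, abs_of_nonneg (by linarith), mul_assoc]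
        exact mul_le_mul (by linarith) hb (norm_nonneg _) (by norm_num)
    · exact (h ξ u0 u h0 h1 h2 h3).2 (right_ne_zero_of_mul hne)
  | inv hF ih =>
    obtain ⟨C, c, hC, hc, h⟩ := ih
    refine ⟨C, c + 1, hC, by positivity, fun ξ u0 u h0 h1 h2 h3 => ⟨?_, fun hne => ?_⟩⟩
    · obtain ⟨hb, hs⟩ := h ξ u0 u h0 h1 h2 h3
      rw [norm_mul, Complex.norm_real, Real.norm_eq_abs, abs_of_pos (inv_pos.2 h0),
        neg_add, Real.rpow_add h0, Real.rpow_neg_one]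
      calc ξ⁻¹ * _ ≤ ξ⁻¹ * (C * ξ ^ (-c)) := mul_le_mul_of_nonneg_left hb (inv_pos.2 h0).le
        _ = C * (ξ ^ (-c) * ξ⁻¹) := by ring
    · exact (h ξ u0 u h0 h1 h2 h3).2 (right_ne_zero_of_mul hne)
  | neg hF ih =>
    obtain ⟨C, c, hC, hc, h⟩ := ih
    refine ⟨C, c, hC, hc, fun ξ u0 u h0 h1 h2 h3 => ⟨?_, fun hne => ?_⟩⟩
    · rw [norm_neg]; exact (h ξ u0 u h0 h1 h2 h3).1
    · exact (h ξ u0 u h0 h1 h2 h3).2 (neg_ne_zero.1 hne)
  | add hF hG ihF ihG =>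
    rename_i F G
    obtain ⟨C, c, hC, hc, h⟩ := ihF
    obtain ⟨C', c', hC', hc', h'⟩ := ihG
    refine ⟨C + C', max c c', by positivity, le_max_of_le_left hc,
      fun ξ u0 u h0 h1 h2 h3 => ⟨?_, fun hne => ?_⟩⟩
    · have e1 : ξ ^ (-c) ≤ ξ ^ (-max c c') :=
        Real.rpow_le_rpow_of_exponent_ge h0 h1 (neg_le_neg (le_max_left _ _))
      have e2 : ξ ^ (-c') ≤ ξ ^ (-max c c') :=
        Real.rpow_le_rpow_of_exponent_ge h0 h1 (neg_le_neg (le_max_right _ _))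
      calc ‖F ξ u0 u + G ξ u0 u‖ ≤ ‖F ξ u0 u‖ + ‖G ξ u0 u‖ := norm_add_le _ _
        _ ≤ C * ξ ^ (-c) + C' * ξ ^ (-c') :=
          add_le_add (h ξ u0 u h0 h1 h2 h3).1 (h' ξ u0 u h0 h1 h2 h3).1
        _ ≤ C * ξ ^ (-max c c') + C' * ξ ^ (-max c c') :=
          add_le_add (mul_le_mul_of_nonneg_left e1 hC) (mul_le_mul_of_nonneg_left e2 hC')
        _ = (C + C') * ξ ^ (-max c c') := by ring
    · beta_reduce at hne
      by_cases hz : F ξ u0 u = 0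
      · rw [hz, zero_add] at hne
        exact (h' ξ u0 u h0 h1 h2 h3).2 hne
      · exact (h ξ u0 u h0 h1 h2 h3).2 hz

theorem Gen.wt {V : ℝ → ℂ} (hV : Prof V) {F : ℝ → ℝ → ℝ → ℂ} (hF : Gen V F)
    {ξ u0 : ℝ} (h0 : 0 < ξ) (h1 : ξ ≤ 1) (h2 : 1 ≤ u0) (h3 : u0 ≤ 2) : Wt (F ξ u0) where
  smooth := hF.contDiff hV ξ u0
  supp := by
    obtain ⟨C, c, _, _, h⟩ := hF.bound hV
    exact HasCompactSupport.of_support_subset_isCompact (isCompact_Icc (a := 1 / 2) (b := 7 / 2))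
      fun u hu => (h ξ u0 u h0 h1 h2 h3).2 hu

theorem Gen.exists_DV {V : ℝ → ℂ} (hV : Prof V) {F : ℝ → ℝ → ℝ → ℂ} (hF : Gen V F) :
    ∃ G : ℝ → ℝ → ℝ → ℂ, Gen V G ∧ ∀ ξ u0 : ℝ, ξ ≠ 0 → DV (F ξ u0) = G ξ u0 := by
  obtain ⟨F1, hF1, h1⟩ := hF.exists_deriv hV
  obtain ⟨F2, hF2, h2⟩ := hF1.exists_deriv hV
  refine ⟨_, Gen.add hF1 (Gen.mulu hF2), fun ξ u0 hξ => ?_⟩
  have e1 : deriv (F ξ u0) = F1 ξ u0 := by funext u; exact (h1 ξ u0 u hξ).deriv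
  have e2 : deriv (F1 ξ u0) = F2 ξ u0 := by funext u; exact (h2 ξ u0 u hξ).deriv
  funext u
  rw [DV, e1, e2]

theorem Gen.exists_D1 {V : ℝ → ℂ} (hV : Prof V) {F : ℝ → ℝ → ℝ → ℂ} (hF : Gen V F) :
    ∃ G : ℝ → ℝ → ℝ → ℂ, Gen V G ∧ ∀ ξ u0 : ℝ, ξ ≠ 0 → D1 (F ξ u0) = G ξ u0 := by
  obtain ⟨F1, hF1, h1⟩ := hF.exists_deriv hV
  refine ⟨_, Gen.neg (Gen.add hF (Gen.mulu hF1)), fun ξ u0 hξ => ?_⟩
  have e1 : deriv (F ξ u0) = F1 ξ u0 := by funext u; exact (h1 ξ u0 u hξ).deriv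
  funext u
  rw [D1, e1]

theorem Gen.exists_DV_iter {V : ℝ → ℂ} (hV : Prof V) {F : ℝ → ℝ → ℝ → ℂ} (hF : Gen V F)
    (j : ℕ) : ∃ G : ℝ → ℝ → ℝ → ℂ, Gen V G ∧ ∀ ξ u0 : ℝ, ξ ≠ 0 → DV^[j] (F ξ u0) = G ξ u0 := by
  induction j with
  | zero => exact ⟨F, hF, fun ξ u0 _ => rfl⟩
  | succ j ih =>
    obtain ⟨G, hG, h⟩ := ih
    obtain ⟨G', hG', h'⟩ := hG.exists_DV hV
    refine ⟨G', hG', fun ξ u0 hξ => ?_⟩
    rw [Function.iterate_succ_apply', h ξ u0 hξ, h' ξ u0 hξ]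

/-- `L¹` norm on `ℂ` -/
theorem Gen.norm_le {V : ℝ → ℂ} (hV : Prof V) {F : ℝ → ℝ → ℝ → ℂ} (hF : Gen V F) :
    ∃ C c : ℝ, 0 ≤ C ∧ 0 ≤ c ∧ ∀ ξ u0 : ℝ, 0 < ξ → ξ ≤ 1 → 1 ≤ u0 → u0 ≤ 2 →
      ∫ z : ℂ, ‖rad (F ξ u0) z‖ ≤ C * ξ ^ (-c) := by
  obtain ⟨C, c, hC, hc, h⟩ := hF.bound hV
  refine ⟨C * volume.real (Metric.closedBall (0 : ℂ) 2), c, by positivity, hc,
    fun ξ u0 h0 h1 h2 h3 => ?_⟩
  have hle : ∀ z : ℂ, ‖rad (F ξ u0) z‖ ≤
      (Metric.closedBall (0 : ℂ) 2).indicator (fun _ => C * ξ ^ (-c)) z := by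
    intro z
    by_cases hz : z ∈ Metric.closedBall (0 : ℂ) 2
    · rw [indicator_of_mem hz]
      exact (h ξ u0 _ h0 h1 h2 h3).1
    · rw [indicator_of_notMem hz]
      rw [mem_closedBall_zero_iff, not_le] at hz
      by_contra hne
      have h5 : F ξ u0 (‖z‖ ^ 2) ≠ 0 := by
        intro h6
        apply hne
        rw [rad, h6, norm_zero]
      have := ((h ξ u0 _ h0 h1 h2 h3).2 h5).2
      nlinarith
  have hint : Integrable ((Metric.closedBall (0 : ℂ) 2).indicator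
      (fun _ : ℂ => C * ξ ^ (-c))) := by
    refine (integrable_indicator_iff Metric.isClosed_closedBall.measurableSet).2 ?_
    exact integrableOn_const (measure_closedBall_lt_top.ne) ENNReal.coe_ne_top
  calc ∫ z : ℂ, ‖rad (F ξ u0) z‖
      ≤ ∫ z : ℂ, (Metric.closedBall (0 : ℂ) 2).indicator (fun _ => C * ξ ^ (-c)) z :=
        integral_mono_of_nonneg (Eventually.of_forall fun _ => norm_nonneg _) hint
          (Eventually.of_forall hle)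
    _ = C * volume.real (Metric.closedBall (0 : ℂ) 2) * ξ ^ (-c) := by
        rw [integral_indicator_const _ Metric.isClosed_closedBall.measurableSet, smul_eq_mul]
        ring

end Vale.Agent.P006.V1X
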